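import Mathlib

namespace Vale.Agent.Results.P033.RunLength

open Finset Matrix

/-- The circulant matrix with first row `h`: `H i j = h (j - i)` (indices mod `n`). -/
def circ {n : ℕ} (h : ZMod n → ℤ) : Matrix (ZMod n) (ZMod n) ℤ :=
  Matrix.of fun i j => h (j - i)

/-- `h` is the first row of a real circulant Hadamard matrix of order `n`. -/
def IsCirculantHadamard (n : ℕ) [NeZero n] (h : ZMod n → ℤ) : Prop :=
  (∀ j, h j = 1 ∨ h j = -1) ∧
    circ h * (circ h)ᵀ = (n : ℤ) • (1 : Matrix (ZMod n) (ZMod n) ℤ)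

variable {n : ℕ} [NeZero n] {h : ZMod n → ℤ}

lemma autocorr (hH : IsCirculantHadamard n h) (u v : ZMod n) :
    ∑ i, h (i + u) * h (i + v) = if u = v then (n : ℤ) else 0 := by
  have := congrFun (congrFun hH.2 (-u)) (-v)
  simp only [circ, Matrix.mul_apply, Matrix.transpose_apply, Matrix.of_apply, sub_neg_eq_add,
    Matrix.smul_apply, Matrix.one_apply, neg_inj] at this
  rw [this]
  split_ifs <;> simp

lemma window_identity (hH : IsCirculantHadamard n h) (d : ZMod n) (L : ℕ)
    (hinj : ∀ k < L, ∀ l < L, k • d = l • d → k = l) :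
    ∑ i, (∑ k ∈ range L, h (i + k • d)) ^ 2 = (n : ℤ) * L := by
  have h1 : ∀ i : ZMod n, (∑ k ∈ range L, h (i + k • d)) ^ 2
      = ∑ k ∈ range L, ∑ l ∈ range L, h (i + k • d) * h (i + l • d) := by
    intro i
    rw [sq, Finset.sum_mul_sum]
  simp_rw [h1]
  rw [Finset.sum_comm]
  have h2 : ∀ k ∈ range L, ∑ i : ZMod n, ∑ l ∈ range L, h (i + k • d) * h (i + l • d) = (n : ℤ) := by
    intro k hk
    rw [Finset.sum_comm]
    simp_rw [autocorr hH]
    rw [Finset.sum_eq_single k]
    · simp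
    · intro l hl hne
      rw [if_neg]
      intro he
      exact hne (hinj k (mem_range.1 hk) l (mem_range.1 hl) he).symm
    · intro hk'
      exact absurd hk hk'
  rw [Finset.sum_congr rfl h2]
  simp [mul_comm]

/-- sliding window sums of a `±1` sequence -/
lemma slide (x : ℕ → ℤ) (hx : ∀ t, x t = 1 ∨ x t = -1) (L t : ℕ) :
    |(∑ k ∈ range L, x (t + 1 + k)) - ∑ k ∈ range L, x (t + k)| ≤ 2 := by
  have h1 : ∑ k ∈ range L, x (t + 1 + k) + x t = ∑ k ∈ range L, x (t + k) + x (t + L) := by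
    have e1 := Finset.sum_range_succ (fun k => x (t + k)) L
    have e2 := Finset.sum_range_succ' (fun k => x (t + k)) L
    simp only [add_zero] at e2
    have e3 : ∀ k, x (t + (k + 1)) = x (t + 1 + k) := by
      intro k; congr 1; ring
    simp_rw [e3] at e2
    linarith
  rcases hx t with a | a <;> rcases hx (t + L) with b | b <;> rw [abs_le] <;> constructor <;> linarith

lemma sumsq (L : ℤ) (J : ℕ) :
    3 * ∑ j ∈ range J, (L - 2 * ((j : ℤ) + 1)) ^ 2
      = 3 * J * L ^ 2 - 6 * L * J * (J + 1) + 2 * J * (J + 1) * (2 * J + 1) := by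
  induction J with
  | zero => simp
  | succ J ih =>
    rw [Finset.sum_range_succ, mul_add, ih]
    push_cast
    ring

/-- lower bound for the sum of squares of window sums around a run of `+1`s -/
lemma seq_bound (x : ℕ → ℤ) (hx : ∀ t, x t = 1 ∨ x t = -1) (J R L : ℕ) (hLR : L ≤ R)
    (hJ : 2 * J ≤ L) (hrun : ∀ t, J ≤ t → t < J + R → x t = 1) :
    ((R - L + 1 : ℕ) : ℤ) * (L : ℤ) ^ 2 + 2 * ∑ j ∈ range J, ((L : ℤ) - 2 * ((j : ℤ) + 1)) ^ 2
      ≤ ∑ t ∈ range (J + (R - L + 1) + J), (∑ k ∈ range L, x (t + k)) ^ 2 := by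
  set T : ℕ → ℤ := fun t => ∑ k ∈ range L, x (t + k) with hT
  have ha : ∀ s, s ≤ R - L → T (J + s) = L := by
    intro s hs
    have : ∀ k ∈ range L, x (J + s + k) = 1 := by
      intro k hk
      have hk' := mem_range.1 hk
      apply hrun <;> omega
    simp only [hT]
    rw [Finset.sum_congr rfl this]
    simp
  have hb : ∀ j, j ≤ J → (L : ℤ) - 2 * j ≤ T (J - j) := by
    intro j
    induction j with
    | zero => intro _; have := ha 0 (Nat.zero_le _); simp at this ⊢; omega
    | succ j ih =>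
      intro hj
      have h1 := ih (by omega)
      have h2 := slide x hx L (J - (j + 1))
      have h3 : J - (j + 1) + 1 = J - j := by omega
      rw [h3] at h2
      have h4 := (abs_le.1 h2).2
      simp only [hT] at h1 ⊢
      push_cast
      linarith
  have hc : ∀ j, (L : ℤ) - 2 * j ≤ T (J + (R - L) + j) := by
    intro j
    induction j with
    | zero => have := ha (R - L) le_rfl; simp at this ⊢; omega
    | succ j ih =>
      have h2 := slide x hx L (J + (R - L) + j)
      have h4 := (abs_le.1 h2).1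
      have h3 : J + (R - L) + (j + 1) = J + (R - L) + j + 1 := by omega
      rw [h3]
      simp only [hT] at ih ⊢
      push_cast
      linarith
  rw [Finset.sum_range_add, Finset.sum_range_add]
  have e1 : ∑ j ∈ range J, ((L : ℤ) - 2 * ((j : ℤ) + 1)) ^ 2 ≤ ∑ t ∈ range J, T t ^ 2 := by
    rw [← Finset.sum_range_reflect (fun t => T t ^ 2)]
    apply Finset.sum_le_sum
    intro j hj
    have hj' := mem_range.1 hj
    have h1 := hb (j + 1) (by omega)
    have h3 : J - (j + 1) = J - 1 - j := by omega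
    rw [h3] at h1
    push_cast at h1
    have h0 : (0 : ℤ) ≤ (L : ℤ) - 2 * ((j : ℤ) + 1) := by
      have : 2 * (j + 1) ≤ L := by omega
      have : (2 * ((j : ℤ) + 1)) ≤ (L : ℤ) := by exact_mod_cast this
      linarith
    exact pow_le_pow_left₀ h0 h1 2
  have e2 : ∑ s ∈ range (R - L + 1), T (J + s) ^ 2 = ((R - L + 1 : ℕ) : ℤ) * (L : ℤ) ^ 2 := by
    have : ∀ s ∈ range (R - L + 1), T (J + s) ^ 2 = (L : ℤ) ^ 2 := by
      intro s hs
      rw [ha s (by have := mem_range.1 hs; omega)]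
    rw [Finset.sum_congr rfl this]
    simp
  have e3 : ∑ j ∈ range J, ((L : ℤ) - 2 * ((j : ℤ) + 1)) ^ 2
      ≤ ∑ j ∈ range J, T (J + (R - L + 1) + j) ^ 2 := by
    apply Finset.sum_le_sum
    intro j hj
    have hj' := mem_range.1 hj
    have h1 := hc (j + 1)
    have h3 : J + (R - L) + (j + 1) = J + (R - L + 1) + j := by omega
    rw [h3] at h1
    push_cast at h1
    have h0 : (0 : ℤ) ≤ (L : ℤ) - 2 * ((j : ℤ) + 1) := by
      have : 2 * (j + 1) ≤ L := by omega
      have : (2 * ((j : ℤ) + 1)) ≤ (L : ℤ) := by exact_mod_cast this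
      linarith
    exact pow_le_pow_left₀ h0 h1 2
  linarith

lemma key_bound (hH : IsCirculantHadamard n h) (a d : ZMod n) (R : ℕ)
    (hinj : Set.InjOn (fun k : ℕ => a + k • d) (Set.Iio R))
    (hrun : ∀ k < R, h (a + k • d) = h a) (L J : ℕ) (hLR : L ≤ R) (hJ : 2 * J + 1 ≤ L) :
    ((R - L + 1 : ℕ) : ℤ) * (L : ℤ) ^ 2 + 2 * ∑ j ∈ range J, ((L : ℤ) - 2 * ((j : ℤ) + 1)) ^ 2
      ≤ (n : ℤ) * L := by
  have hinj' : ∀ k < R, ∀ l < R, k • d = l • d → k = l := by
    intro k hk l hl he
    apply hinj (Set.mem_Iio.2 hk) (Set.mem_Iio.2 hl)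
    simp only [he]
  have hε : h a * h a = 1 := by
    rcases hH.1 a with e | e <;> rw [e] <;> norm_num
  set a' : ZMod n := a - J • d with ha'
  set x : ℕ → ℤ := fun t => h a * h (a' + t • d) with hxdef
  have hx : ∀ t, x t = 1 ∨ x t = -1 := by
    intro t
    simp only [hxdef]
    rcases hH.1 a with e | e <;> rcases hH.1 (a' + t • d) with f | f <;> rw [e, f] <;> norm_num
  have hrun' : ∀ t, J ≤ t → t < J + R → x t = 1 := by
    intro t h1 h2
    simp only [hxdef]
    have : a' + t • d = a + (t - J) • d := by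
      obtain ⟨s, rfl⟩ := Nat.exists_eq_add_of_le h1
      simp only [ha', add_smul, Nat.add_sub_cancel_left]
      ring
    rw [this, hrun _ (by omega), hε]
  have hb := seq_bound x hx J R L hLR (by omega) hrun'
  refine hb.trans ?_
  rw [← window_identity hH d L (fun k hk l hl => hinj' k (by omega) l (by omega))]
  have hT : ∀ t : ℕ, (∑ k ∈ range L, x (t + k)) ^ 2
      = (∑ k ∈ range L, h ((a' + t • d) + k • d)) ^ 2 := by
    intro t
    have : ∑ k ∈ range L, x (t + k) = h a * ∑ k ∈ range L, h ((a' + t • d) + k • d) := by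
      rw [Finset.mul_sum]
      apply Finset.sum_congr rfl
      intro k _
      simp only [hxdef, add_smul, add_assoc]
    rw [this, mul_pow, sq (h a), hε, one_mul]
  simp_rw [hT]
  have hinj2 : Set.InjOn (fun t : ℕ => a' + t • d) (range (J + (R - L + 1) + J) : Set ℕ) := by
    intro k hk l hl he
    have hk' : k < J + (R - L + 1) + J := by simpa using hk
    have hl' : l < J + (R - L + 1) + J := by simpa using hl
    apply hinj' k (by omega) l (by omega)
    exact add_left_cancel he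
  rw [← Finset.sum_image (f := fun i => (∑ k ∈ range L, h (i + k • d)) ^ 2) hinj2]
  apply Finset.sum_le_univ_sum_of_nonneg
  intro i
  positivity

lemma param_bound (hH : IsCirculantHadamard n h) (a d : ZMod n) (R : ℕ)
    (hinj : Set.InjOn (fun k : ℕ => a + k • d) (Set.Iio R))
    (hrun : ∀ k < R, h (a + k • d) = h a) (L : ℕ) (hL : 1 ≤ L) (hLR : L ≤ R) :
    3 * R * L + 2 ≤ 3 * n + 2 * L ^ 2 := by
  obtain ⟨e, rfl⟩ := Nat.exists_eq_add_of_le hLR
  have hcast : ((L + e - L + 1 : ℕ) : ℤ) = (e : ℤ) + 1 := by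
    rw [Nat.add_sub_cancel_left]; push_cast; ring
  have hLpos : (0 : ℤ) < (L : ℤ) := by exact_mod_cast hL
  have goalZ : (3 * ((L : ℤ) + e) * L + 2) ≤ 3 * (n : ℤ) + 2 * (L : ℤ) ^ 2 := by
    rcases Nat.even_or_odd' L with ⟨J, hJ | hJ⟩
    · -- L = 2 J, J >= 1; use J - 1
      obtain ⟨K, rfl⟩ : ∃ K, J = K + 1 := ⟨J - 1, by omega⟩
      have hk := key_bound hH a d (L + e) hinj hrun L K (by omega) (by omega)
      rw [hcast] at hk
      have hs := sumsq (L : ℤ) K
      have hLK : (L : ℤ) = 2 * (K : ℤ) + 2 := by rw [hJ]; push_cast; ring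
      have : (3 * ((L : ℤ) + e) * L + 2) * L ≤ (3 * (n : ℤ) + 2 * (L : ℤ) ^ 2) * L := by
        have h3 : 3 * (((e : ℤ) + 1) * (L : ℤ) ^ 2) + 2 * (3 * ∑ j ∈ range K, ((L : ℤ) - 2 * ((j : ℤ) + 1)) ^ 2)
            ≤ 3 * ((n : ℤ) * L) := by linarith
        rw [hs] at h3
        rw [hLK] at h3 ⊢
        nlinarith [h3]
      exact le_of_mul_le_mul_right this hLpos
    · have hk := key_bound hH a d (L + e) hinj hrun L J (by omega) (by omega)
      rw [hcast] at hk
      have hs := sumsq (L : ℤ) J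
      have hLK : (L : ℤ) = 2 * (J : ℤ) + 1 := by rw [hJ]; push_cast; ring
      have : (3 * ((L : ℤ) + e) * L + 2) * L ≤ (3 * (n : ℤ) + 2 * (L : ℤ) ^ 2) * L := by
        have h3 : 3 * (((e : ℤ) + 1) * (L : ℤ) ^ 2) + 2 * (3 * ∑ j ∈ range J, ((L : ℤ) - 2 * ((j : ℤ) + 1)) ^ 2)
            ≤ 3 * ((n : ℤ) * L) := by linarith
        rw [hs] at h3
        rw [hLK] at h3 ⊢
        nlinarith [h3]
      exact le_of_mul_le_mul_right this hLpos
  exact_mod_cast goalZ

/-- **Run-length restriction.**  If `h` is the first row of a real circulant Hadamard matrix of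
order `n` and `h` is constant along `R` distinct terms `a, a+d, ..., a+(R-1)d` of an arithmetic
progression in `ZMod n` (for `d = 1`: a block of `R` cyclically consecutive equal signs), then
`3 R L + 2 ≤ 3 n + 2 L²` for all `1 ≤ L ≤ R`, and hence `3 R² + 4 ≤ 8 n`. -/
theorem result (n : ℕ) [NeZero n] (h : ZMod n → ℤ) (hH : IsCirculantHadamard n h)
    (a d : ZMod n) (R : ℕ)
    (hinj : Set.InjOn (fun k : ℕ => a + k • d) (Set.Iio R))
    (hrun : ∀ k < R, h (a + k • d) = h a) :
    (∀ L : ℕ, 1 ≤ L → L ≤ R → 3 * R * L + 2 ≤ 3 * n + 2 * L ^ 2) ∧ 3 * R ^ 2 + 4 ≤ 8 * n := by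
  have hp := param_bound hH a d R hinj hrun
  refine ⟨hp, ?_⟩
  have hn : 1 ≤ n := Nat.pos_of_ne_zero (NeZero.ne n)
  obtain ⟨r, e, he, rfl⟩ : ∃ r e, e < 4 ∧ R = 4 * r + e :=
    ⟨R / 4, R % 4, Nat.mod_lt _ (by norm_num), (Nat.div_add_mod R 4).symm⟩
  interval_cases e
  · rcases Nat.eq_zero_or_pos r with rfl | hr
    · omega
    · have := hp (3 * r) (by omega) (by omega)
      nlinarith [this]
  · have := hp (3 * r + 1) (by omega) (by omega)
    nlinarith [this]
  · have := hp (3 * r + 1) (by omega) (by omega)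
    nlinarith [this]
  · have := hp (3 * r + 2) (by omega) (by omega)
    nlinarith [this]

end Vale.Agent.Results.P033.RunLength
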